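import Vale.Agent.P042.MathlibUsed

set_option autoImplicit false

/-!
# P042, Theorem S2: the Bregman divergence of `x ^ (1 + θ)`
-/

namespace Vale.Agent.P042.H54

open Set

/-- derivative inequality, `v ≥ 1` -/
theorem key_ge {β u v : ℝ} (hβ : 1 ≤ β) (hu : 0 ≤ u) (hv : 1 ≤ v) :
    (u + v - 1) ^ β ≤ v ^ (β - 1) * (v - 1 + u ^ β) := by
  have hv0 : 0 < v := by linarith
  have hc := (convexOn_rpow hβ).2 (show (1 : ℝ) ∈ Set.Ici 0 from Set.mem_Ici.2 zero_le_one)
    (show u ∈ Set.Ici (0 : ℝ) from Set.mem_Ici.2 hu)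
    (show 0 ≤ (v - 1) / v from div_nonneg (by linarith) hv0.le)
    (show 0 ≤ 1 / v from by positivity) (by field_simp; ring)
  simp only [smul_eq_mul, Real.one_rpow, mul_one] at hc
  have h1 : (v - 1) / v + 1 / v * u = (u + v - 1) / v := by field_simp; ring
  rw [h1, Real.div_rpow (by linarith) hv0.le] at hc
  have hvb : 0 < v ^ β := Real.rpow_pos_of_pos hv0 β
  rw [div_le_iff₀ hvb] at hc
  refine hc.trans (le_of_eq ?_)
  rw [Real.rpow_sub hv0, Real.rpow_one]
  field_simp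

/-- derivative inequality, `v ≤ 1` -/
theorem key_le {β u v : ℝ} (hβ : 1 ≤ β) (hv0 : 0 < v) (hv : v ≤ 1)
    (huv : 0 ≤ u + v - 1) :
    v ^ (β - 1) * (v - 1 + u ^ β) ≤ (u + v - 1) ^ β := by
  have hc := (convexOn_rpow hβ).2
    (show (u + v - 1) / v ∈ Set.Ici (0 : ℝ) from Set.mem_Ici.2 (div_nonneg huv hv0.le))
    (show (1 : ℝ) ∈ Set.Ici 0 from Set.mem_Ici.2 zero_le_one) hv0.le
    (show 0 ≤ 1 - v by linarith) (by ring)
  simp only [smul_eq_mul, Real.one_rpow, mul_one] at hc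
  have h1 : v * ((u + v - 1) / v) + (1 - v) = u := by field_simp; ring
  rw [h1, Real.div_rpow huv hv0.le] at hc
  have hvb : 0 < v ^ β := Real.rpow_pos_of_pos hv0 β
  have h2 : v ^ (β - 1) = v ^ β / v := by rw [Real.rpow_sub hv0, Real.rpow_one]
  rw [h2]
  have h3 : v ^ β / v * (v - 1 + u ^ β) ≤ v ^ β / v * (v * ((u + v - 1) ^ β / v ^ β)) := by
    apply mul_le_mul_of_nonneg_left _ (by positivity)
    linarith
  refine h3.trans (le_of_eq ?_)
  field_simp

/-- the auxiliary function -/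
noncomputable def Gf (β u v : ℝ) : ℝ :=
  u ^ (1 + β) + v ^ (1 + β) + 1 / β - (1 + 1 / β) * (u ^ β + v ^ β) +
    (1 + 1 / β) * (u ^ β * v ^ β)

theorem Gf_one {β : ℝ} (u : ℝ) : Gf β u 1 = u ^ (1 + β) := by
  unfold Gf
  simp only [Real.one_rpow]
  ring

theorem hasDeriv_Gf {β u v : ℝ} (hβ : 1 ≤ β) :
    HasDerivAt (fun v => Gf β u v) ((1 + β) * (v ^ β - v ^ (β - 1) + u ^ β * v ^ (β - 1))) v := by
  unfold Gf
  have h1 : HasDerivAt (fun v : ℝ => v ^ (1 + β)) ((1 + β) * v ^ (1 + β - 1)) v :=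
    Real.hasDerivAt_rpow_const (Or.inr (by linarith))
  have h2 : HasDerivAt (fun v : ℝ => v ^ β) (β * v ^ (β - 1)) v :=
    Real.hasDerivAt_rpow_const (Or.inr hβ)
  have h := (((h1.const_add (u ^ (1 + β))).add_const (1 / β)).sub
    ((h2.const_add (u ^ β)).const_mul (1 + 1 / β))).add
    ((h2.const_mul (u ^ β)).const_mul (1 + 1 / β))
  refine h.congr_deriv ?_
  have h3 : (1 : ℝ) + β - 1 = β := by ring
  rw [h3]
  have h4 : β ≠ 0 := by linarith
  field_simp
  ring

/-- case `v ≥ 1` -/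
theorem Gf_ge {β u v : ℝ} (hβ : 1 ≤ β) (hu : 0 ≤ u) (hv : 1 ≤ v) :
    (u + v - 1) ^ (1 + β) ≤ Gf β u v := by
  have hmono : MonotoneOn (fun v => Gf β u v - (u + v - 1) ^ (1 + β)) (Ici 1) := by
    have hd : ∀ x : ℝ, HasDerivAt (fun v => Gf β u v - (u + v - 1) ^ (1 + β))
        ((1 + β) * (x ^ β - x ^ (β - 1) + u ^ β * x ^ (β - 1)) -
          (1 + β) * (u + x - 1) ^ β) x := by
      intro x
      have h1 : HasDerivAt (fun v : ℝ => (u + v - 1)) 1 x := by
        simpa using ((hasDerivAt_id x).const_add u).sub_const 1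
      have h2 := h1.rpow_const (p := 1 + β) (Or.inr (by linarith))
      have h3 := (hasDeriv_Gf (u := u) (v := x) hβ).sub h2
      refine h3.congr_deriv ?_
      have h4 : (1 : ℝ) + β - 1 = β := by ring
      rw [h4]
      ring
    apply monotoneOn_of_deriv_nonneg (convex_Ici 1)
    · intro x _
      exact (hd x).continuousAt.continuousWithinAt
    · intro x _
      exact (hd x).differentiableAt.differentiableWithinAt
    · intro x hx
      rw [interior_Ici] at hx
      have hx1 : (1 : ℝ) < x := hx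
      rw [(hd x).deriv]
      have hk := key_ge hβ hu hx1.le
      have hx0 : 0 < x := by linarith
      have h5 : x ^ β = x ^ (β - 1) * x := by
        rw [Real.rpow_sub hx0, Real.rpow_one]; field_simp
      rw [← mul_sub]
      apply mul_nonneg (by linarith)
      rw [h5]
      nlinarith [hk]
  have h := hmono (Set.mem_Ici.2 le_rfl) (Set.mem_Ici.2 hv) hv
  simp only [Gf_one] at h
  have h6 : u + 1 - 1 = u := by ring
  rw [h6] at h
  linarith

/-- case `v ≤ 1 ≤ u + v` -/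
theorem Gf_mid {β u v : ℝ} (hβ : 1 ≤ β) (hv0 : 0 ≤ v) (hv : v ≤ 1)
    (huv : 0 ≤ u + v - 1) :
    (u + v - 1) ^ (1 + β) ≤ Gf β u v := by
  have hanti : AntitoneOn (fun v => Gf β u v - (u + v - 1) ^ (1 + β)) (Icc v 1) := by
    have hd : ∀ x : ℝ, HasDerivAt (fun v => Gf β u v - (u + v - 1) ^ (1 + β))
        ((1 + β) * (x ^ β - x ^ (β - 1) + u ^ β * x ^ (β - 1)) -
          (1 + β) * (u + x - 1) ^ β) x := by
      intro x
      have h1 : HasDerivAt (fun v : ℝ => (u + v - 1)) 1 x := by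
        simpa using ((hasDerivAt_id x).const_add u).sub_const 1
      have h2 := h1.rpow_const (p := 1 + β) (Or.inr (by linarith))
      have h3 := (hasDeriv_Gf (u := u) (v := x) hβ).sub h2
      refine h3.congr_deriv ?_
      have h4 : (1 : ℝ) + β - 1 = β := by ring
      rw [h4]
      ring
    apply antitoneOn_of_deriv_nonpos (convex_Icc v 1)
    · intro x _
      exact (hd x).continuousAt.continuousWithinAt
    · intro x _
      exact (hd x).differentiableAt.differentiableWithinAt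
    · intro x hx
      rw [interior_Icc] at hx
      have hx0 : 0 < x := lt_of_le_of_lt hv0 hx.1
      rw [(hd x).deriv]
      have hk := key_le (u := u) hβ hx0 hx.2.le (by linarith [hx.1])
      have h5 : x ^ β = x ^ (β - 1) * x := by
        rw [Real.rpow_sub hx0, Real.rpow_one]; field_simp
      rw [← mul_sub]
      apply mul_nonpos_of_nonneg_of_nonpos (by linarith)
      rw [h5]
      nlinarith [hk]
  have h := hanti (Set.mem_Icc.2 ⟨le_rfl, hv⟩) (Set.mem_Icc.2 ⟨hv, le_rfl⟩) hv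
  simp only [Gf_one] at h
  have h6 : u + 1 - 1 = u := by ring
  rw [h6] at h
  linarith

/-- case `u + v ≤ 1` -/
theorem Gf_low {β u v : ℝ} (hβ : 1 ≤ β) (hu : 0 ≤ u) (hv0 : 0 ≤ v) (huv : u + v ≤ 1) :
    0 ≤ Gf β u v := by
  have hanti : AntitoneOn (fun v => Gf β u v) (Icc v (1 - u)) := by
    have hd : ∀ x : ℝ, HasDerivAt (fun v => Gf β u v)
        ((1 + β) * (x ^ β - x ^ (β - 1) + u ^ β * x ^ (β - 1))) x :=
      fun x => hasDeriv_Gf hβ
    apply antitoneOn_of_deriv_nonpos (convex_Icc v (1 - u))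
    · intro x _
      exact (hd x).continuousAt.continuousWithinAt
    · intro x _
      exact (hd x).differentiableAt.differentiableWithinAt
    · intro x hx
      rw [interior_Icc] at hx
      have hx0 : 0 < x := lt_of_le_of_lt hv0 hx.1
      rw [(hd x).deriv]
      have h5 : x ^ β = x ^ (β - 1) * x := by
        rw [Real.rpow_sub hx0, Real.rpow_one]; field_simp
      apply mul_nonpos_of_nonneg_of_nonpos (by linarith)
      have hu1 : u ≤ 1 := by linarith
      have h6 : u ^ β ≤ u := by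
        have := Real.rpow_le_rpow_of_exponent_ge' hu hu1 zero_le_one hβ
        simpa using this
      have h7 : 0 ≤ x ^ (β - 1) := Real.rpow_nonneg hx0.le _
      rw [h5]
      nlinarith [hx.2, mul_nonneg h7 (show 0 ≤ 1 - x - u ^ β by linarith [hx.2])]
  have hv1 : v ≤ 1 - u := by linarith
  have h := hanti (Set.mem_Icc.2 ⟨le_rfl, hv1⟩) (Set.mem_Icc.2 ⟨hv1, le_rfl⟩) hv1
  have h1 := Gf_mid (u := u) (v := 1 - u) hβ (by linarith) (by linarith) (by linarith)
  have h2 : 0 ≤ (u + (1 - u) - 1) ^ (1 + β) := Real.rpow_nonneg (by linarith) _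
  simp only at h
  linarith

/-- all cases -/
theorem Gf_all {β u v : ℝ} (hβ : 1 ≤ β) (hu : 0 ≤ u) (hv0 : 0 ≤ v) :
    (max (u + v - 1) 0) ^ (1 + β) ≤ Gf β u v := by
  rcases le_total 0 (u + v - 1) with h | h
  · rw [max_eq_left h]
    rcases le_total 1 v with h1 | h1
    · exact Gf_ge hβ hu h1
    · exact Gf_mid hβ hv0 h1 h
  · rw [max_eq_right h, Real.zero_rpow (by linarith)]
    exact Gf_low hβ hu hv0 (by linarith)

/-- Young -/
theorem young_aux {θ a M : ℝ} (hθ : 0 < θ) (ha : 0 ≤ a) :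
    (1 + θ) * (a * M) ≤ a ^ (1 + θ) + θ * (max M 0) ^ (1 + 1 / θ) := by
  have h1 : a * M ≤ a * max M 0 := mul_le_mul_of_nonneg_left (le_max_left _ _) ha
  have hpq : (1 + θ).HolderConjugate (1 + 1 / θ) := by
    rw [Real.holderConjugate_iff]
    refine ⟨by linarith, ?_⟩
    field_simp
    ring
  have h2 := Real.young_inequality_of_nonneg ha (le_max_right M 0) hpq
  have h3 : (max M 0) ^ (1 + 1 / θ) / (1 + 1 / θ) = θ / (1 + θ) * (max M 0) ^ (1 + 1 / θ) := by
    field_simp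
    ring
  rw [h3] at h2
  have h4 : (1 + θ) * (a * M) ≤
      (1 + θ) * (a ^ (1 + θ) / (1 + θ) + θ / (1 + θ) * (max M 0) ^ (1 + 1 / θ)) :=
    mul_le_mul_of_nonneg_left (h1.trans h2) (by linarith)
  refine h4.trans (le_of_eq ?_)
  field_simp

/-- Bregman divergence of `x ^ (1 + θ)` -/
noncomputable def br (θ a b : ℝ) : ℝ := a ^ (1 + θ) + θ * b ^ (1 + θ) - (1 + θ) * (b ^ θ * a)

/-- supporting hyperplane at `(A, 1)` -/
theorem br_support_one {θ a b A : ℝ} (hθ : 0 < θ) (hθ1 : θ ≤ 1) (ha : 0 ≤ a) (hb : 0 ≤ b)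
    (hA : 0 ≤ A) :
    (1 + θ) * (A ^ θ - 1) * a + (1 + θ) * θ * (1 - A) * b -
      θ * (A ^ (1 + θ) + θ - (1 + θ) * A) ≤ br θ a b := by
  have hy := young_aux (M := A ^ θ + b ^ θ - 1) hθ ha
  have hβ : 1 ≤ 1 / θ := by rw [le_div_iff₀ hθ]; linarith
  have hG := Gf_all (u := A ^ θ) (v := b ^ θ) hβ (Real.rpow_nonneg hA _)
    (Real.rpow_nonneg hb _)
  have e1 : ∀ x : ℝ, 0 ≤ x → (x ^ θ) ^ (1 / θ) = x := by
    intro x hx
    rw [← Real.rpow_mul hx]
    field_simp
    exact Real.rpow_one x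
  have e2 : ∀ x : ℝ, 0 ≤ x → (x ^ θ) ^ (1 + 1 / θ) = x ^ (1 + θ) := by
    intro x hx
    rw [← Real.rpow_mul hx]
    congr 1
    field_simp
    ring
  unfold Gf at hG
  rw [e1 A hA, e1 b hb, e2 A hA, e2 b hb, one_div_one_div] at hG
  have hG' := mul_le_mul_of_nonneg_left hG hθ.le
  unfold br
  nlinarith [hy, hG']

end Vale.Agent.P042.H54
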