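import Vale.Agent.P042.H54.Breg

set_option autoImplicit false

/-!
# P042, Theorem S2: the Bregman divergence of `x ^ (1 + θ)`, joint convexity and comparison
with the relative entropy
-/

namespace Vale.Agent.P042.H54

open Set

/-- homogeneity -/
theorem br_smul {θ a b c : ℝ} (hθ : 0 < θ) (ha : 0 ≤ a) (hb : 0 ≤ b) (hc : 0 ≤ c) :
    br θ (c * a) (c * b) = c ^ (1 + θ) * br θ a b := by
  unfold br
  rw [Real.mul_rpow hc ha, Real.mul_rpow hc hb, Real.mul_rpow hc hb]
  rcases eq_or_lt_of_le hc with h | h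
  · rw [← h, Real.zero_rpow (by linarith), Real.zero_rpow hθ.ne']
    ring
  · rw [Real.rpow_add h, Real.rpow_one]
    ring

theorem rpow_one_add {x θ : ℝ} (hθ : 0 < θ) (hx : 0 ≤ x) : x ^ (1 + θ) = x * x ^ θ := by
  rw [Real.rpow_add_of_nonneg hx zero_le_one hθ.le, Real.rpow_one]

/-- supporting hyperplane at `(A, B)` -/
theorem br_support {θ a b A B : ℝ} (hθ : 0 < θ) (hθ1 : θ ≤ 1) (ha : 0 ≤ a) (hb : 0 ≤ b)
    (hA : 0 ≤ A) (hB : 0 < B) :
    (1 + θ) * (A ^ θ - B ^ θ) * a + (1 + θ) * θ * (B ^ θ - B ^ θ * (A / B)) * b -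
      θ * br θ A B ≤ br θ a b := by
  have h := br_support_one (a := a / B) (b := b / B) (A := A / B) hθ hθ1 (by positivity)
    (by positivity) (by positivity)
  have h1 := mul_le_mul_of_nonneg_left h (Real.rpow_nonneg hB.le (1 + θ))
  have e1 : B ^ (1 + θ) * br θ (a / B) (b / B) = br θ a b := by
    rw [← br_smul hθ (by positivity) (by positivity) hB.le]
    congr 1 <;> field_simp
  have e2 : B ^ (1 + θ) * ((A / B) ^ (1 + θ) + θ - (1 + θ) * (A / B)) = br θ A B := by
    have : br θ (A / B) 1 = (A / B) ^ (1 + θ) + θ - (1 + θ) * (A / B) := by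
      unfold br
      rw [Real.one_rpow, Real.one_rpow]; ring
    rw [← this, ← br_smul hθ (by positivity) zero_le_one hB.le]
    congr 1 <;> field_simp
  have e3 : B ^ (1 + θ) = B * B ^ θ := rpow_one_add hθ hB.le
  have e4 : B ^ θ * (A / B) ^ θ = A ^ θ := by
    rw [← Real.mul_rpow hB.le (by positivity)]
    congr 1; field_simp
  rw [e1] at h1
  refine le_trans (le_of_eq ?_) h1
  rw [← e2]
  have e5 : B ^ (1 + θ) * ((1 + θ) * ((A / B) ^ θ - 1) * (a / B)) =
      (1 + θ) * (A ^ θ - B ^ θ) * a := by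
    rw [e3, ← e4]
    field_simp
  have e6 : B ^ (1 + θ) * ((1 + θ) * θ * (1 - A / B) * (b / B)) =
      (1 + θ) * θ * (B ^ θ - B ^ θ * (A / B)) * b := by
    rw [e3]
    field_simp
  rw [← e5, ← e6]
  ring

theorem br_nonneg {θ a b : ℝ} (hθ : 0 < θ) (ha : 0 ≤ a) (hb : 0 ≤ b) : 0 ≤ br θ a b := by
  have h := young_aux (M := b ^ θ) hθ ha
  rw [max_eq_left (Real.rpow_nonneg hb _)] at h
  have e2 : (b ^ θ) ^ (1 + 1 / θ) = b ^ (1 + θ) := by
    rw [← Real.rpow_mul hb]
    congr 1
    field_simp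
    ring
  rw [e2] at h
  unfold br
  nlinarith [h]

/-- `br` as an increment -/
theorem br_eq {θ a b : ℝ} (hθ : 0 < θ) (hb : 0 ≤ b) :
    br θ a b = a ^ (1 + θ) - b ^ (1 + θ) - (1 + θ) * (b ^ θ * (a - b)) := by
  unfold br
  rw [rpow_one_add hθ hb]
  ring

/-- joint convexity of the Bregman divergence -/
theorem br_jensen {κ : Type*} (s : Finset κ) (w a b : κ → ℝ) {θ : ℝ} (hθ : 0 < θ)
    (hθ1 : θ ≤ 1) (hw : ∀ i ∈ s, 0 ≤ w i) (hw1 : ∑ i ∈ s, w i = 1) (ha : ∀ i ∈ s, 0 ≤ a i)
    (hb : ∀ i ∈ s, 0 ≤ b i) :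
    br θ (∑ i ∈ s, w i * a i) (∑ i ∈ s, w i * b i) ≤ ∑ i ∈ s, w i * br θ (a i) (b i) := by
  set A := ∑ i ∈ s, w i * a i with hAdef
  set B := ∑ i ∈ s, w i * b i with hBdef
  have hA : 0 ≤ A := Finset.sum_nonneg fun i hi => mul_nonneg (hw i hi) (ha i hi)
  have hB : 0 ≤ B := Finset.sum_nonneg fun i hi => mul_nonneg (hw i hi) (hb i hi)
  rcases eq_or_lt_of_le hB with h | h
  · -- all `w i * b i = 0`
    have hz : ∀ i ∈ s, w i * b i = 0 :=
      (Finset.sum_eq_zero_iff_of_nonneg fun i hi => mul_nonneg (hw i hi) (hb i hi)).1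
        (hBdef ▸ h.symm)
    have e : ∀ i ∈ s, w i * br θ (a i) (b i) = w i * a i ^ (1 + θ) := by
      intro i hi
      rcases mul_eq_zero.1 (hz i hi) with h0 | h0
      · rw [h0]; ring
      · rw [h0]
        unfold br
        rw [Real.zero_rpow (by linarith), Real.zero_rpow hθ.ne']
        ring
    rw [Finset.sum_congr rfl e, ← h]
    have e2 : br θ A 0 = A ^ (1 + θ) := by
      unfold br
      rw [Real.zero_rpow (by linarith), Real.zero_rpow hθ.ne']
      ring
    rw [e2]
    exact Real.rpow_arith_mean_le_arith_mean_rpow s w a hw hw1 ha (by linarith)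
  · have hsum : ∑ i ∈ s, w i * ((1 + θ) * (A ^ θ - B ^ θ) * a i +
        (1 + θ) * θ * (B ^ θ - B ^ θ * (A / B)) * b i - θ * br θ A B) ≤
        ∑ i ∈ s, w i * br θ (a i) (b i) :=
      Finset.sum_le_sum fun i hi =>
        mul_le_mul_of_nonneg_left (br_support hθ hθ1 (ha i hi) (hb i hi) hA h) (hw i hi)
    refine le_trans (le_of_eq ?_) hsum
    have e : ∀ i ∈ s, w i * ((1 + θ) * (A ^ θ - B ^ θ) * a i +
        (1 + θ) * θ * (B ^ θ - B ^ θ * (A / B)) * b i - θ * br θ A B) =
        (1 + θ) * (A ^ θ - B ^ θ) * (w i * a i) +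
        (1 + θ) * θ * (B ^ θ - B ^ θ * (A / B)) * (w i * b i) - θ * br θ A B * w i := by
      intro i _
      ring
    rw [Finset.sum_congr rfl e, Finset.sum_sub_distrib, Finset.sum_add_distrib,
      ← Finset.mul_sum, ← Finset.mul_sum, ← Finset.mul_sum, hw1, ← hAdef, ← hBdef]
    have e5 : br θ A B + θ * br θ A B = (1 + θ) * br θ A B := by ring
    have e6 : (1 + θ) * br θ A B = (1 + θ) * (A ^ θ - B ^ θ) * A +
        (1 + θ) * θ * (B ^ θ - B ^ θ * (A / B)) * B := by
      unfold br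
      rw [rpow_one_add hθ hA, rpow_one_add hθ h.le]
      field_simp
      ring
    linarith

/-- comparison with the relative entropy, normalised -/
theorem br_le_kl_one {θ x U : ℝ} (hθ : 0 < θ) (hx : 0 ≤ x) (hU : 1 ≤ U)
    (hxU : x ≤ U) : br θ x 1 ≤ θ * (1 + θ) * U ^ θ * (x * Real.log x - x + 1) := by
  have hbr : br θ x 1 = x ^ (1 + θ) + θ - (1 + θ) * x := by
    unfold br
    rw [Real.one_rpow, Real.one_rpow]; ring
  rw [hbr]
  set c := U ^ θ with hc
  have hc1 : 1 ≤ c := Real.one_le_rpow hU hθ.le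
  -- difference function
  have hd : ∀ y : ℝ, y ≠ 0 → HasDerivAt (fun x => θ * (1 + θ) * c * (x * Real.log x - x + 1) -
      (x ^ (1 + θ) + θ - (1 + θ) * x)) (θ * (1 + θ) * c * Real.log y -
        (1 + θ) * (y ^ θ - 1)) y := by
    intro y hy
    have h1 := Real.hasDerivAt_mul_log hy
    have h2 : HasDerivAt (fun x : ℝ => x ^ (1 + θ)) ((1 + θ) * y ^ (1 + θ - 1)) y :=
      Real.hasDerivAt_rpow_const (Or.inr (by linarith))
    have h3 := (((h1.sub (hasDerivAt_id y)).add_const 1).const_mul (θ * (1 + θ) * c)).sub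
      ((h2.add_const θ).sub ((hasDerivAt_id y).const_mul (1 + θ)))
    refine h3.congr_deriv ?_
    have h4 : (1 : ℝ) + θ - 1 = θ := by ring
    rw [h4]
    ring
  have hcont : Continuous (fun x : ℝ => θ * (1 + θ) * c * (x * Real.log x - x + 1) -
      (x ^ (1 + θ) + θ - (1 + θ) * x)) := by
    have h1 : Continuous fun x : ℝ => x * Real.log x := Real.continuous_mul_log
    have h2 : Continuous fun x : ℝ => x ^ (1 + θ) :=
      Real.continuous_rpow_const (by linarith)
    fun_prop
  rcases le_total 1 x with h1 | h1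
  · have hmono : MonotoneOn (fun x => θ * (1 + θ) * c * (x * Real.log x - x + 1) -
        (x ^ (1 + θ) + θ - (1 + θ) * x)) (Icc 1 U) := by
      apply monotoneOn_of_deriv_nonneg (convex_Icc 1 U) hcont.continuousOn
      · intro y hy
        rw [interior_Icc] at hy
        exact (hd y (by linarith [hy.1])).differentiableAt.differentiableWithinAt
      · intro y hy
        rw [interior_Icc] at hy
        have hy0 : 0 < y := by linarith [hy.1]
        rw [(hd y hy0.ne').deriv]
        have hlog : 0 ≤ Real.log y := Real.log_nonneg hy.1.le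
        have h5 : y ^ θ ≤ c := Real.rpow_le_rpow hy0.le hy.2.le hθ.le
        have h6 : 1 - y ^ (-θ) ≤ θ * Real.log y := by
          have h7 := Real.add_one_le_exp (-θ * Real.log y)
          have h8 : y ^ (-θ) = Real.exp (-θ * Real.log y) := by
            rw [Real.rpow_def_of_pos hy0]; ring_nf
          rw [h8]; linarith
        have h7 : y ^ θ * y ^ (-θ) = 1 := by
          rw [← Real.rpow_add hy0]; simp
        have h8 : y ^ θ - 1 ≤ y ^ θ * (θ * Real.log y) := by
          have := mul_le_mul_of_nonneg_left h6 (Real.rpow_nonneg hy0.le θ)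
          nlinarith
        have h9 : y ^ θ * (θ * Real.log y) ≤ c * (θ * Real.log y) :=
          mul_le_mul_of_nonneg_right h5 (by positivity)
        nlinarith
    have h := hmono (Set.mem_Icc.2 ⟨le_rfl, hU⟩) (Set.mem_Icc.2 ⟨h1, hxU⟩) h1
    simp only [Real.log_one, Real.one_rpow] at h
    linarith
  · have hanti : AntitoneOn (fun x => θ * (1 + θ) * c * (x * Real.log x - x + 1) -
        (x ^ (1 + θ) + θ - (1 + θ) * x)) (Icc 0 1) := by
      apply antitoneOn_of_deriv_nonpos (convex_Icc 0 1) hcont.continuousOn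
      · intro y hy
        rw [interior_Icc] at hy
        exact (hd y hy.1.ne').differentiableAt.differentiableWithinAt
      · intro y hy
        rw [interior_Icc] at hy
        have hy0 : 0 < y := hy.1
        rw [(hd y hy0.ne').deriv]
        have hlog : Real.log y ≤ 0 := Real.log_nonpos hy0.le hy.2.le
        have h6 : 1 + θ * Real.log y ≤ y ^ θ := by
          have h7 := Real.add_one_le_exp (θ * Real.log y)
          have h8 : y ^ θ = Real.exp (θ * Real.log y) := by
            rw [Real.rpow_def_of_pos hy0]; ring_nf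
          rw [h8]; linarith
        have h9 : c * (θ * Real.log y) ≤ 1 * (θ * Real.log y) :=
          mul_le_mul_of_nonpos_right hc1 (mul_nonpos_of_nonneg_of_nonpos hθ.le hlog)
        nlinarith
    have h := hanti (Set.mem_Icc.2 ⟨hx, h1⟩) (Set.mem_Icc.2 ⟨zero_le_one, le_rfl⟩) h1
    simp only [Real.log_one, Real.one_rpow] at h
    linarith

/-- comparison with the relative entropy -/
theorem br_le_kl {θ a b U : ℝ} (hθ : 0 < θ) (ha : 0 ≤ a) (hb : 0 < b) (hU : 1 ≤ U)
    (hab : a ≤ U * b) :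
    br θ a b ≤ θ * (1 + θ) * U ^ θ * b ^ θ * (a * Real.log (a / b) - a + b) := by
  have h := br_le_kl_one (x := a / b) hθ (by positivity) hU (by rw [div_le_iff₀ hb]; exact hab)
  have h1 := mul_le_mul_of_nonneg_left h (Real.rpow_nonneg hb.le (1 + θ))
  rw [← br_smul hθ (by positivity) zero_le_one hb.le] at h1
  have e1 : b * (a / b) = a := by field_simp
  rw [e1, mul_one] at h1
  refine h1.trans (le_of_eq ?_)
  rw [rpow_one_add hθ hb.le]
  field_simp

end Vale.Agent.P042.H54
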