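import Vale.Agent.P042.MathlibUsed

set_option autoImplicit false
set_option linter.unusedSectionVars false

/-!
# P042, Theorem S2: finite product spaces

`cnd π S f` is the conditional expectation of `f` on the coordinates in `S`.
-/

namespace Vale.Agent.P042.H54

open Finset Function

variable {ι : Type*} [Fintype ι] [DecidableEq ι] {X : ι → Type*} [∀ i, Fintype (X i)]

/-- a family of probability weights -/
structure PWts (π : ∀ i, X i → ℝ) : Prop where
  nn : ∀ i x, 0 ≤ π i x
  one : ∀ i, ∑ x, π i x = 1

/-- product weight of a point -/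
noncomputable def pw (π : ∀ i, X i → ℝ) (y : ∀ i, X i) : ℝ := ∏ i, π i (y i)

/-- expectation in the product space -/
noncomputable def EE (π : ∀ i, X i → ℝ) (f : (∀ i, X i) → ℝ) : ℝ := ∑ y, pw π y * f y

/-- average over the coordinate `i` -/
noncomputable def av (π : ∀ i, X i → ℝ) (i : ι) (f : (∀ i, X i) → ℝ) (x : ∀ i, X i) : ℝ :=
  ∑ a, π i a * f (update x i a)

/-- point with the coordinates of `x` in `S` and those of `y` outside `S` -/
def mix (S : Finset ι) (x y : ∀ i, X i) : ∀ i, X i := fun i => if i ∈ S then x i else y i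

/-- conditional expectation on the coordinates in `S` -/
noncomputable def cnd (π : ∀ i, X i → ℝ) (S : Finset ι) (f : (∀ i, X i) → ℝ) (x : ∀ i, X i) :
    ℝ := ∑ y, pw π y * f (mix S x y)

section basic

variable {π : ∀ i, X i → ℝ}

theorem pw_nonneg (h : PWts π) (y : ∀ i, X i) : 0 ≤ pw π y :=
  Finset.prod_nonneg fun i _ => h.nn i _

theorem sum_pw (h : PWts π) : ∑ y, pw π y = 1 := by
  unfold pw
  rw [← Fintype.prod_sum]
  exact Finset.prod_eq_one fun i _ => h.one i

theorem pw_update (y : ∀ i, X i) (i : ι) (a : X i) :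
    pw π y * π i a = pw π (update y i a) * π i (y i) := by
  unfold pw
  rw [← Finset.mul_prod_erase univ (fun j => π j (y j)) (mem_univ i),
    ← Finset.mul_prod_erase univ (fun j => π j (update y i a j)) (mem_univ i)]
  have h1 : ∏ j ∈ univ.erase i, π j (update y i a j) = ∏ j ∈ univ.erase i, π j (y j) := by
    apply Finset.prod_congr rfl
    intro j hj
    rw [update_of_ne (ne_of_mem_erase hj)]
  rw [h1, update_self]
  ring

theorem EE_mono (h : PWts π) {f g : (∀ i, X i) → ℝ} (hfg : ∀ x, f x ≤ g x) :
    EE π f ≤ EE π g :=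
  Finset.sum_le_sum fun y _ => mul_le_mul_of_nonneg_left (hfg y) (pw_nonneg h y)

theorem EE_nonneg (h : PWts π) {f : (∀ i, X i) → ℝ} (hf : ∀ x, 0 ≤ f x) : 0 ≤ EE π f :=
  Finset.sum_nonneg fun y _ => mul_nonneg (pw_nonneg h y) (hf y)

theorem EE_const (h : PWts π) (c : ℝ) : EE π (fun _ => c) = c := by
  unfold EE
  rw [← Finset.sum_mul, sum_pw h, one_mul]

theorem EE_add (f g : (∀ i, X i) → ℝ) : EE π (fun x => f x + g x) = EE π f + EE π g := by
  unfold EE
  rw [← Finset.sum_add_distrib]
  exact Finset.sum_congr rfl fun y _ => by ring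

theorem EE_sub (f g : (∀ i, X i) → ℝ) : EE π (fun x => f x - g x) = EE π f - EE π g := by
  unfold EE
  rw [← Finset.sum_sub_distrib]
  exact Finset.sum_congr rfl fun y _ => by ring

theorem EE_smul (c : ℝ) (f : (∀ i, X i) → ℝ) : EE π (fun x => c * f x) = c * EE π f := by
  unfold EE
  rw [Finset.mul_sum]
  exact Finset.sum_congr rfl fun y _ => by ring

theorem EE_sum {κ : Type*} (s : Finset κ) (f : κ → (∀ i, X i) → ℝ) :
    EE π (fun x => ∑ k ∈ s, f k x) = ∑ k ∈ s, EE π (f k) := by
  unfold EE
  rw [Finset.sum_comm]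
  exact Finset.sum_congr rfl fun y _ => by rw [Finset.mul_sum]

/-- averaging over one coordinate does not change the expectation -/
theorem EE_av (h : PWts π) (i : ι) (f : (∀ i, X i) → ℝ) : EE π (av π i f) = EE π f := by
  unfold EE av
  have h1 : ∑ y, pw π y * ∑ a, π i a * f (update y i a) =
      ∑ q : (∀ i, X i) × X i, pw π q.1 * π i q.2 * f (update q.1 i q.2) := by
    rw [Fintype.sum_prod_type]
    exact Finset.sum_congr rfl fun y _ => by
      rw [Finset.mul_sum]
      exact Finset.sum_congr rfl fun a _ => by ring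
  have h2 : ∑ q : (∀ i, X i) × X i, pw π q.1 * π i q.2 * f (update q.1 i q.2) =
      ∑ q : (∀ i, X i) × X i, pw π q.1 * π i q.2 * f q.1 := by
    let e : (∀ i, X i) × X i → (∀ i, X i) × X i := fun q => (update q.1 i q.2, q.1 i)
    have he : Function.Involutive e := by
      intro q
      simp [e]
    let E : Equiv.Perm ((∀ i, X i) × X i) := Function.Involutive.toPerm e he
    rw [← Equiv.sum_comp E (fun q => pw π q.1 * π i q.2 * f q.1)]
    apply Finset.sum_congr rfl
    intro q _
    have h3 : E q = (update q.1 i q.2, q.1 i) := rfl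
    rw [h3]
    simp only
    rw [← pw_update q.1 i q.2]
  rw [h1, h2, Fintype.sum_prod_type]
  apply Finset.sum_congr rfl
  intro y _
  have h4 : ∑ a, pw π y * π i a * f y = (pw π y * f y) * ∑ a, π i a := by
    rw [Finset.mul_sum]
    exact Finset.sum_congr rfl fun a _ => by ring
  rw [h4, h.one i, mul_one]

theorem av_nonneg (h : PWts π) (i : ι) {f : (∀ i, X i) → ℝ} (hf : ∀ x, 0 ≤ f x) (x : ∀ i, X i) :
    0 ≤ av π i f x :=
  Finset.sum_nonneg fun a _ => mul_nonneg (h.nn i a) (hf _)

theorem av_mono (h : PWts π) (i : ι) {f g : (∀ i, X i) → ℝ} (hfg : ∀ x, f x ≤ g x)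
    (x : ∀ i, X i) : av π i f x ≤ av π i g x :=
  Finset.sum_le_sum fun a _ => mul_le_mul_of_nonneg_left (hfg _) (h.nn i a)

/-- `av` of a function not depending on the coordinate -/
theorem av_of_indep (h : PWts π) (i : ι) {f : (∀ i, X i) → ℝ}
    (hf : ∀ x a, f (update x i a) = f x) (x : ∀ i, X i) : av π i f x = f x := by
  unfold av
  simp only [hf]
  rw [← Finset.sum_mul, h.one i, one_mul]

theorem mix_update_of_notMem {S : Finset ι} {i : ι} (hi : i ∉ S) (x y : ∀ i, X i) (a : X i) :
    mix S x (update y i a) = mix (insert i S) (update x i a) y := by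
  funext j
  unfold mix
  by_cases hj : j = i
  · subst hj
    simp [hi]
  · simp [hj, Finset.mem_insert]

theorem mix_update_left_of_notMem {S : Finset ι} {i : ι} (hi : i ∉ S) (x y : ∀ i, X i)
    (a : X i) : mix S (update x i a) y = mix S x y := by
  funext j
  unfold mix
  by_cases hj : j = i
  · subst hj
    simp [hi]
  · simp [hj]

theorem cnd_univ (h : PWts π) (f : (∀ i, X i) → ℝ) (x : ∀ i, X i) : cnd π univ f x = f x := by
  unfold cnd
  have : ∀ y, mix univ x y = x := by
    intro y
    funext j
    simp [mix]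
  simp only [this]
  rw [← Finset.sum_mul, sum_pw h, one_mul]

theorem cnd_empty (f : (∀ i, X i) → ℝ) (x : ∀ i, X i) : cnd π ∅ f x = EE π f := by
  unfold cnd EE
  have : ∀ y, mix ∅ x y = y := by
    intro y
    funext j
    simp [mix]
  simp only [this]

theorem cnd_nonneg (h : PWts π) (S : Finset ι) {f : (∀ i, X i) → ℝ} (hf : ∀ x, 0 ≤ f x)
    (x : ∀ i, X i) : 0 ≤ cnd π S f x :=
  Finset.sum_nonneg fun y _ => mul_nonneg (pw_nonneg h y) (hf _)

/-- `cnd` does not depend on the coordinates outside `S` -/
theorem cnd_update {S : Finset ι} {i : ι} (hi : i ∉ S) (f : (∀ i, X i) → ℝ) (x : ∀ i, X i)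
    (a : X i) : cnd π S f (update x i a) = cnd π S f x := by
  unfold cnd
  exact Finset.sum_congr rfl fun y _ => by rw [mix_update_left_of_notMem hi]

theorem cnd_congr {S : Finset ι} (f : (∀ i, X i) → ℝ) {x x' : ∀ i, X i}
    (hx : ∀ i ∈ S, x i = x' i) : cnd π S f x = cnd π S f x' := by
  unfold cnd
  apply Finset.sum_congr rfl
  intro y _
  have : mix S x y = mix S x' y := by
    funext j
    unfold mix
    by_cases hj : j ∈ S
    · simp [hj, hx j hj]
    · simp [hj]
  rw [this]

/-- removing one coordinate -/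
theorem cnd_eq_av (h : PWts π) {S : Finset ι} {i : ι} (hi : i ∉ S) (f : (∀ i, X i) → ℝ)
    (x : ∀ i, X i) : cnd π S f x = av π i (cnd π (insert i S) f) x := by
  have h1 : cnd π S f x = EE π (fun y => f (mix S x y)) := rfl
  rw [h1, ← EE_av h i]
  unfold EE av cnd
  have h2 : ∀ y : ∀ i, X i, pw π y * ∑ a, π i a * f (mix S x (update y i a)) =
      ∑ a, π i a * (pw π y * f (mix (insert i S) (update x i a) y)) := by
    intro y
    rw [Finset.mul_sum]
    refine Finset.sum_congr rfl fun a _ => ?_
    rw [mix_update_of_notMem hi]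
    ring
  rw [Finset.sum_congr rfl fun y _ => h2 y, Finset.sum_comm]
  refine Finset.sum_congr rfl fun a _ => ?_
  rw [Finset.mul_sum]

theorem EE_cnd (h : PWts π) (S : Finset ι) (f : (∀ i, X i) → ℝ) : EE π (cnd π S f) = EE π f := by
  have key : ∀ T : Finset ι, EE π (cnd π (univ \ T) f) = EE π f := by
    intro T
    induction T using Finset.induction_on with
    | empty =>
      rw [Finset.sdiff_empty]
      unfold EE
      exact Finset.sum_congr rfl fun y _ => by rw [cnd_univ h]
    | insert i T hi ih =>
      rw [← ih]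
      have hins : insert i (univ \ insert i T) = univ \ T := by
        ext j
        simp only [mem_insert, mem_sdiff, mem_univ, true_and]
        by_cases hj : j = i
        · subst hj; simp [hi]
        · simp [hj]
      have h1 : ∀ x, cnd π (univ \ insert i T) f x = av π i (cnd π (univ \ T) f) x := by
        intro x
        rw [cnd_eq_av h (i := i) (by simp) f x, hins]
      have h2 : EE π (cnd π (univ \ insert i T) f) = EE π (av π i (cnd π (univ \ T) f)) := by
        unfold EE
        exact Finset.sum_congr rfl fun y _ => by rw [h1]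
      rw [h2, EE_av h]
  have := key (univ \ S)
  rwa [Finset.sdiff_sdiff_eq_self (Finset.subset_univ S)] at this

/-- pulling out a function which does not depend on the coordinate -/
theorem EE_mul_av (h : PWts π) (i : ι) {g : (∀ i, X i) → ℝ}
    (hg : ∀ x a, g (update x i a) = g x) (f : (∀ i, X i) → ℝ) :
    EE π (fun x => g x * av π i f x) = EE π (fun x => g x * f x) := by
  rw [← EE_av h i (fun x => g x * f x)]
  unfold EE av
  refine Finset.sum_congr rfl fun y _ => ?_
  congr 1
  simp only [hg]
  rw [Finset.mul_sum]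
  refine Finset.sum_congr rfl fun a _ => ?_
  ring

end basic

end Vale.Agent.P042.H54
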